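import Mathlib

/-!
# P080: definitions for the interior gradient estimate of infinity-harmonic functions
-/

namespace Vale.Agent.P080

open scoped RealInnerProductSpace

section
variable {E : Type*} [NormedAddCommGroup E] [InnerProductSpace ℝ E]

/-- `u` is globally `L`-Lipschitz. -/
def Lip (u : E → ℝ) (L : ℝ) : Prop := ∀ x y, u x - u y ≤ L * ‖x - y‖

/-- The Hopf-Lax sup-convolution at time `s`. -/
noncomputable def Tp (u : E → ℝ) (s : ℝ) (x : E) : ℝ :=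
  ⨆ a : E, (u (x + s • a) - s * ‖a‖ ^ 2 / 2)

/-- The mean growth rate of the sup-convolution. -/
noncomputable def ep (u : E → ℝ) (s : ℝ) (x : E) : ℝ := (Tp u s x - u x) / s

/-- `a` is an optimal velocity at `x` for time `s`. -/
def Opt (u : E → ℝ) (s : ℝ) (x a : E) : Prop :=
  Tp u s x = u (x + s • a) - s * ‖a‖ ^ 2 / 2

/-- Monotonicity of the growth rate in time. -/
def Mono (u : E → ℝ) (D s0 : ℝ) : Prop :=
  ∀ x : E, ‖x‖ ≤ D → ∀ s s' : ℝ, 0 < s → s ≤ s' → s' ≤ s0 → ep u s x ≤ ep u s' x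

/-- Comparison with cones from above. -/
def Sub (u : E → ℝ) (D rad : ℝ) : Prop :=
  ∀ x : E, ‖x‖ ≤ D → ∀ r : ℝ, 0 < r → r ≤ rad → ∀ m : ℝ, (∀ z, ‖z - x‖ ≤ r → u z ≤ m) →
    ∀ y, ‖y - x‖ ≤ r → r * (u y - u x) ≤ ‖y - x‖ * (m - u x)

/-- `u` is close to an affine function on a cylinder in direction `p`. -/
def Cyl (u : E → ℝ) (C R ρ : ℝ) (x p : E) (κ : ℝ) : Prop :=
  ∀ (t : ℝ) (y : E), |t| ≤ ρ / R →
    |u (x + t • p + y) - u x - ⟪p, y⟫ - t * (κ + ‖p‖ ^ 2 / 2)| ≤ C * (ρ + ‖y‖ ^ 2 / ρ)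

/-- The package of local properties used at the critical scale. -/
structure Pk (u : E → ℝ) (L C R ρ1 D : ℝ) : Prop where
  lip : Lip u L
  hL : 0 ≤ L
  hC : 1 ≤ C
  hR : 4 * C ≤ R
  mono : Mono u D ρ1
  monoN : Mono (-u) D ρ1
  cyl : ∀ x : E, ‖x‖ ≤ D → ∀ ρ : ℝ, 0 < ρ → ρ ≤ ρ1 → ∃ p κ, Cyl u C R ρ x p κ

variable {ι : Type} [Fintype ι]

/-- Average over a finite index type. -/
noncomputable def av (f : ι → ℝ) : ℝ := (∑ i, f i) / (Fintype.card ι : ℝ)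

/-- Barycenter. -/
noncomputable def cen (B : ι → E) : E := ((Fintype.card ι : ℝ)⁻¹) • ∑ i, B i

/-- Root mean square norm. -/
noncomputable def nrm (B : ι → E) : ℝ := √(av fun i => ‖B i‖ ^ 2)

/-- Root mean square distance to the barycenter. -/
noncomputable def rms (B : ι → E) : ℝ := nrm fun i => B i - cen B

/-- The Jensen gap of a configuration. -/
noncomputable def GN (u : E → ℝ) (B : ι → E) : ℝ := av (fun i => u (B i)) - u (cen B)

/-- A linear bound for the Jensen gap. -/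
def Gb (ι : Type) [Fintype ι] (u : E → ℝ) (γ D r : ℝ) : Prop :=
  ∀ B : ι → E, ‖cen B‖ ≤ D → rms B ≤ r → GN u B ≤ γ * rms B

/-- A length controlling all displacements. -/
noncomputable def UU (ι : Type) [Fintype ι] (L ρ1 : ℝ) : ℝ :=
  ρ1 * (L + 2) + 4 * √(Fintype.card ι : ℝ)

/-- The configuration lies in the cylinder of the frame `(x0, p)` at scale `ρ`. -/
def Near (R ρ : ℝ) (x0 p : E) (B : ι → E) : Prop :=
  ∃ (t : ℝ) (y : E), |t| ≤ ρ / (2 * R) ∧ ‖y‖ ≤ ρ ∧ cen B = x0 + t • p + y ∧ rms B ≤ ρ ∧ rms B ≤ 4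

/-- The sum of the growth rates of a configuration. -/
noncomputable def es (u : E → ℝ) (σ : ℝ) (B : ι → E) : ℝ :=
  av (fun i => ep u σ (B i)) + 2 * ep (-u) (2 * σ) (cen B)

/-- The functional of the maximum principle. -/
noncomputable def Psi (u : E → ℝ) (σ lam μ h c : ℝ) (x w : E) (B : ι → E) (t : ℝ) : ℝ :=
  GN u B + σ * es u σ B - (lam * rms B - μ * rms B ^ 2 / 2)
    - h * (‖cen B - x - t • w‖ ^ 2 + t ^ 2) / c ^ 2

/-- The region of the maximum principle. -/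
def Reg (x w : E) (c r0 r1 : ℝ) (B : ι → E) (t : ℝ) : Prop :=
  |t| ≤ c ∧ ‖cen B - x - t • w‖ ≤ c ∧ r0 ≤ rms B ∧ rms B ≤ r1

end

end Vale.Agent.P080
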